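import Vale.Agent.P287D.Defs

/-!
# P287D: the interface of the b-divisor language (statements)
-/

set_option linter.unusedVariables false

open Set Filter Topology

noncomputable section

namespace Vale.Agent.P287D

/-- a statement for all function fields -/
def ForK (P : ∀ (n : ℕ) (K : Type) [Field K] [Algebra ℂ K], Prop) : Prop :=
  ∀ (n : ℕ) (K : Type) [Field K] [Algebra ℂ K], FF K n → P n K

/-- a statement for all function fields of positive dimension `n + 1` -/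
def ForS (P : ∀ (n : ℕ) (K : Type) [Field K] [Algebra ℂ K], Prop) : Prop :=
  ∀ (n : ℕ) (K : Type) [Field K] [Algebra ℂ K], FF K (n + 1) → P n K

/-- a statement for all ring homomorphisms -/
def ForH (P : ∀ (K K' : Type) [Field K] [Algebra ℂ K] [Field K'] [Algebra ℂ K'],
    (K →+* K') → Prop) : Prop :=
  ∀ (K K' : Type) [Field K] [Algebra ℂ K] [Field K'] [Algebra ℂ K'] (φ : K →+* K'), P K K' φ

section defs

variable {K K' : Type} [Field K] [Algebra ℂ K] [Field K'] [Algebra ℂ K']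

/-- constants go to constants -/
def Cst (φ : K →+* K') : Prop := ∀ c, φ (algebraMap ℂ K c) ∈ range (algebraMap ℂ K')

/-- integral b-divisors -/
def IsZ (Z : BD K) : Prop := ∀ P, ∃ z : ℤ, Z P = z

/-- the inclusion of a subfield -/
abbrev inc (L : IntermediateField ℂ K) : L →+* K := algebraMap L K

/-- horizontal places -/
def Hor (L : IntermediateField ℂ K) (P : Pl K) : Prop := ∀ a ∈ L, a ∈ P.ring

/-- the map of residue fields -/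
def IsRd (φ : K →+* K') (P : Pl K') (Q : Pl K) (ρ : Q.κ →+* P.κ) : Prop :=
  ∀ f ∈ Q.ring, ρ (Q.rd f) = P.rd (φ f)

/-- `K'` over its constants is a component of the generic member of the system `s` -/
structure GM (s : Finset K) (φ : K →+* K') : Prop where
  cst : Cst φ
  gen : Subfield.closure (range φ ∪ range (algebraMap ℂ K')) = ⊤
  ex : ∃ (K₁ : Type) (_ : Field K₁) (_ : Algebra ℂ K₁) (ι : K →ₐ[ℂ] K₁) (a : s → K₁)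
    (L : IntermediateField ℂ K₁) (ψ : K₁ →+* K') (j : s), (j : K) ≠ 0 ∧ ∑ i, a i * ι i = 0 ∧
    AlgebraicIndependent ι.fieldRange (fun i : {i // i ≠ j} => a i) ∧
    Subfield.closure (range ι ∪ range a) = ⊤ ∧ (∀ i, a i ∈ L) ∧
    (∀ f ∈ L, IsAlgebraic (IntermediateField.adjoin ℂ (range a)) f) ∧ Cld L ∧ GF L ψ ∧
    φ = ψ.comp ι.toRingHom

/-- the comparison of discrepancies along `φ`, for the pairs `Γ` and `pb φ (Γ + ω) - dv f` -/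
structure Tr (n r : ℕ) (φ : K →+* K') (ω : BD K) (ok : BD K → Prop) (f : K') : Prop where
  ne : f ≠ 0
  ge : ∀ P Q, Lies φ P Q →
    P.ord (φ Q.t) * (cn K (n + 1) Q + 1) ≤ (cn K' (r + 1) + dv f - pb φ ω) P + 1
  triv : ∀ P : Pl K', (∀ g, φ g ∈ P.ring) → 0 ≤ (cn K' (r + 1) + dv f) P
  on : ∀ Λ, Smp Λ → Big Λ → ok Λ → ∀ P, On r (pb φ Λ) P →
    ((∀ g, φ g ∈ P.ring) ∧ (cn K' (r + 1) + dv f) P = 0) ∨ ∃ Q, Lies φ P Q ∧ On n Λ Q ∧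
      P.ord (φ Q.t) = 1 ∧ (cn K' (r + 1) + dv f - pb φ ω) P = cn K (n + 1) Q
  off : ∀ Λ, Smp Λ → Big Λ → ok Λ → ∀ P, ¬ On r (pb φ Λ) P →
    ((∀ g, φ g ∈ P.ring) → 1 ≤ (cn K' (r + 1) + dv f) P) ∧ ∀ Q, Lies φ P Q → On n Λ Q →
      P.ord (φ Q.t) * (cn K (n + 1) Q + 1) ≤ (cn K' (r + 1) + dv f - pb φ ω) P

/-- `x` is the blow up of a smooth closed point of `K'` which is the generic point of `K` -/
structure GenPt (n : ℕ) (φ : K →+* K') (x : Pl K') : Prop where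
  triv : ∀ g, φ g ∈ x.ring
  pt : ∀ g, x.rd (φ g) ∈ range (algebraMap ℂ x.κ)
  dsc : ∀ f, Tr n n φ 0 (fun _ => True) f → (cn K' (n + 1) + dv f) x = n
  mult : ∀ β : BD K, Nef β → ∀ c : ℝ, 0 ≤ c → c ^ (n + 1) < vol (n + 1) β →
    ∃ G, Rep (pb φ β) G ∧ c ≤ G x

/-- `N` is the fixed part of `D` and `D - N` is semiample -/
structure ZD (D N : BD K) : Prop where
  nn : 0 ≤ N
  smp : Smp (D - N)
  fix : ∀ G, Rep D G → N ≤ G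

/-- the combination with the coefficients `a` -/
def lc {ι : Type} [Fintype ι] (D : ι → BD K) (a : ι → ℝ) : BD K := ∑ i, a i • D i

end defs

/-- **FFS**: residue fields and subfields are function fields; the dimension is unique -/
structure FFS : Prop where
  rsd : ForS fun n K _ _ => ∀ P : Pl K, FF P.κ n
  sub : ForK fun n K _ _ => ∀ L : IntermediateField ℂ K, ∃ m ≤ n, FF L m
  uniq : ForK fun n K _ _ => ∀ m, FF K m → m = n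
  trdeg : ForK fun n K _ _ => Algebra.trdeg ℂ K = n
  cld : ForK fun _ K _ _ => ∀ L : IntermediateField ℂ K, ∃ L', L ≤ L' ∧ Cld L' ∧
    ∀ f ∈ L', IsAlgebraic L f

/-- **MOD**: high models -/
structure MOD : Prop where
  isb : ForS fun n K _ _ => (∀ β ∈ Car K, IsB n β) ∧ IsB n (cn K (n + 1)) ∧ IsZ (cn K (n + 1))
  ex : ForS fun n K _ _ => ∀ (T : Set (Pl K)) (B : Set (BD K)), T.Finite → B.Finite →
    B ⊆ Car K → ∃ s Γ, Term n (mx s) Γ ∧ Γ ∈ CarZ K ∧ (∀ P ∈ T, On n (mx s) P) ∧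
      (∀ β ∈ B, Dsc (mx s) β) ∧ (∀ P, ¬ On n (mx s) P → 1 ≤ dsc (n + 1) Γ P) ∧
      ∀ P, On n (mx s) P → ∃ β ∈ CarZ K, Hull n (mx s) P.δ β
  fin : ForS fun n K _ _ => ∀ Z : BD K, IsB n Z → Module.Finite ℂ (H0 Z)
  exc : ForS fun n K _ _ => ∀ Λ Λ' : BD K, Smp Λ → Big Λ → Smp Λ' → Big Λ' →
    {P | On n Λ P ∧ ¬ On n Λ' P}.Finite
  zero : ForS fun _ K _ _ => ∀ β ∈ Prn K, 0 ≤ β → β = 0
  int : ForK fun _ K _ _ => ∀ β ∈ Car K, (∀ P, ∃ q : ℚ, β P = q) → CarQ β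

/-- **RES**: restriction to a prime divisor -/
structure RES : Prop where
  add : ForS fun _ K _ _ => ∀ P, ∀ β ∈ Car K, ∀ γ ∈ Car K, res P (β + γ) = res P β + res P γ
  smul : ForS fun _ K _ _ => ∀ P (c : ℝ), ∀ β ∈ Car K, res P (c • β) = c • res P β
  sys : ForS fun _ K _ _ => ∀ (P : Pl K) s, res P (mx s) = mx (P.rs s)
  pri : ForS fun _ K _ _ => ∀ (P : Pl K) f, f ≠ 0 → res P (dv f) = dv (P.rd (f / P.t ^ P.ord f))
  nef : ForS fun _ K _ _ => ∀ (P : Pl K) β, Nef β → Nef (res P β)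
  nn : ForS fun _ K _ _ => ∀ P, ∀ β ∈ Car K, 0 ≤ β → β P = 0 → 0 ≤ res P β
  sec : ForS fun _ K _ _ => ∀ P, ∀ β ∈ Car K, ∀ f, β P = 0 → Sec β f → Sec (res P β) (P.rd f)
  on : ForS fun n K _ _ => ∀ (Λ : BD K) P, Smp Λ → (On n Λ P ↔ Big (res P Λ))
  des : ForS fun _ K _ _ => ∀ (Λ β : BD K) P, Dsc Λ β → Dsc (res P Λ) (res P β)

/-- **INT**: intersection numbers -/
structure INT : Prop where
  fin : ForS fun n K _ _ => ∀ (Z : BD K) (β : Fin n → BD K), IsB n Z → (∀ i, β i ∈ Car K) →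
    {P | Z P * I n P.κ (fun i => res P (β i)) ≠ 0}.Finite
  add : ForK fun n K _ _ => ∀ (β : Fin n → BD K) i a b, IsB (n - 1) a → IsB (n - 1) b →
    (∀ j, IsB (n - 1) (β j)) → (∀ j : Fin n, j.1 ≠ 0 → β j ∈ Car K) →
    (i.1 ≠ 0 → a ∈ Car K ∧ b ∈ Car K) →
    I n K (Function.update β i (a + b)) =
      I n K (Function.update β i a) + I n K (Function.update β i b)
  smul : ForK fun n K _ _ => ∀ (β : Fin n → BD K) i (c : ℝ) a,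
    (∀ j : Fin n, j.1 ≠ 0 → β j ∈ Car K) → (i.1 ≠ 0 → a ∈ Car K) →
    I n K (Function.update β i (c • a)) = c * I n K (Function.update β i a)
  perm : ForK fun n K _ _ => ∀ (β : Fin n → BD K) (σ : Equiv.Perm (Fin n)), (∀ j, β j ∈ Car K) →
    I n K (β ∘ σ) = I n K β
  perm' : ForS fun n K _ _ => ∀ (Z : BD K) (β : Fin n → BD K) (σ : Equiv.Perm (Fin n)),
    (∀ j, β j ∈ Car K) → I (n + 1) K (Fin.cons Z (β ∘ σ)) = I (n + 1) K (Fin.cons Z β)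
  prn : ForK fun n K _ _ => ∀ (β : Fin n → BD K) i, (∀ j : Fin n, j.1 ≠ 0 → β j ∈ Car K) →
    β i ∈ Prn K → I n K β = 0
  nn : ForS fun n K _ _ => ∀ (Z : BD K) (β : Fin n → BD K), Psef Z → IsB n Z → (∀ i, Nef (β i)) →
    0 ≤ I (n + 1) K (Fin.cons Z β)
  pos : ForS fun n K _ _ => ∀ (Z : BD K) (β : Fin n → BD K), Big Z → IsB n Z →
    (∀ i, Nef (β i) ∧ Big (β i)) → 0 < I (n + 1) K (Fin.cons Z β)
  int : ForS fun n K _ _ => ∀ (Z : BD K) (β : Fin n → BD K), IsZ Z → IsB n Z →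
    (∀ i, β i ∈ CarZ K) → ∃ z : ℤ, I (n + 1) K (Fin.cons Z β) = z
  exc : ForS fun n K _ _ => ∀ (Λ : BD K) (P : Pl K) (β : Fin n → BD K), Smp Λ → ¬ On n Λ P →
    (∀ i, Dsc Λ (β i)) → I n P.κ (fun i => res P (β i)) = 0
  num : ForS fun n K _ _ => ∀ β ∈ Car K, (Num β ↔ ∀ γ : Fin n → BD K, (∀ i, γ i ∈ Car K) →
    I (n + 1) K (Fin.cons β γ) = 0)
  nef1 : ∀ (K : Type) [Field K] [Algebra ℂ K], FF K 1 → ∀ β : BD K, IsB 0 β →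
    β ∈ Car K ∧ (Nef β ↔ 0 ≤ I1 β) ∧ (Big β ↔ 0 < I1 β) ∧ (0 < I1 β → Smp β)
  nef : ∀ (n : ℕ) (K : Type) [Field K] [Algebra ℂ K], FF K (n + 2) → ∀ β ∈ Car K,
    (∀ P : Pl K, Nef (res P β)) → Nef β

/-- **VOL**: bigness -/
structure VOL : Prop where
  big : ForK fun n K _ _ => ∀ β : BD K, Nef β → (Big β ↔ 0 < vol n β)
  siu : ForS fun n K _ _ => ∀ A B : BD K, Nef A → Nef B →
    (n + 1) * I (n + 1) K (Fin.cons B fun _ => A) < vol (n + 1) A → Big (A - B)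
  rr : ForK fun n K _ _ => ∀ β ∈ CarZ K, Nef β →
    Tendsto (fun m : ℕ => (h0 ((m : ℝ) • β) : ℝ) * n.factorial / m ^ n) atTop (𝓝 (vol n β))
  mono : ForK fun n K _ _ => ∀ A B : BD K, Nef A → Nef B → Psef (B - A) → vol n A ≤ vol n B
  hodge : ∀ (K : Type) [Field K] [Algebra ℂ K], FF K 2 → ∀ a ∈ Car K, ∀ b ∈ Car K, 0 < I2 a a →
    I2 a a * I2 b b ≤ I2 a b ^ 2 ∧
      (I2 a a * I2 b b = I2 a b ^ 2 → Num (I2 a a • b - I2 a b • a))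
  kt : ∀ (n : ℕ) (K : Type) [Field K] [Algebra ℂ K], FF K (n + 2) →
    ∀ (a b : BD K) (c : Fin n → BD K), Nef a → Nef b → (∀ i, Nef (c i)) →
    I (n + 2) K (Fin.cons a (Fin.cons a c)) * I (n + 2) K (Fin.cons b (Fin.cons b c)) ≤
      I (n + 2) K (Fin.cons a (Fin.cons b c)) ^ 2

/-- **NEG**: negativity, hulls, descent -/
structure NEG : Prop where
  neg : ForS fun n K _ _ => ∀ (Λ β : BD K) (c : ℝ), Smp Λ → Big Λ → β ∈ Car K →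
    Nef (β + c • Λ) → (∀ P, On n Λ P → β P ≤ 0) → β ≤ 0
  nn : ForS fun n K _ _ => ∀ Λ β : BD K, Smp Λ → Big Λ → Dsc Λ β →
    (∀ P, On n Λ P → 0 ≤ β P) → 0 ≤ β ∧ ∀ Q, 0 < β Q ↔ ∃ P, On n Λ P ∧ 0 < β P ∧ CLe Λ Q P
  amp : ForK fun _ K _ _ => ∀ Λ A β : BD K, Smp Λ → AmpOn Λ A → Dsc Λ β →
    Smp A ∧ AmpOn A Λ ∧ (Smp β → AmpOn Λ (A + β)) ∧ ∃ ε : ℝ, 0 < ε ∧ AmpOn Λ (A + ε • β)
  exa : ForS fun n K _ _ => ∀ Λ Λ' : BD K, Smp Λ → Big Λ → Smp Λ' → Dsc Λ' Λ → QF n Λ →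
    ∃ E : BD K, 0 ≤ E ∧ (∀ P, On n Λ P → E P = 0) ∧ (∀ P, ¬ On n Λ P → On n Λ' P → 0 < E P) ∧
      AmpOn Λ' (Λ - E)
  avoid : ForS fun _ K _ _ => ∀ (Λ : BD K) (T : Set (Pl K)), Smp Λ → T.Finite →
    ∃ G, Rep Λ G ∧ ∀ P ∈ T, G P = 0
  iso : ForS fun n K _ _ => ∀ Λ Λ' : BD K, Smp Λ → Smp Λ' → AmpOn Λ Λ' →
    fld Λ = fld Λ' ∧ Pic Λ = Pic Λ' ∧ (∀ P, On n Λ P ↔ On n Λ' P) ∧
      (∀ β, Dsc Λ β ↔ Dsc Λ' β) ∧ ∀ P Q, CLe Λ P Q ↔ CLe Λ' P Q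

/-- **DESC**: rigidity -/
def DESC : Prop := ForK fun _ K _ _ => ∀ (Λ β : BD K) (c : ℝ), Smp Λ → Smp β →
  Nef (c • Λ - β) → Dsc Λ β

/-- **KLK**: Kleiman's criterion and descent on a base over which a klt pair is weak Fano -/
def KLK : Prop := ForS fun n K _ _ => ∀ (Λ Λ₁ Γ : BD K) (c : ℝ), Smp Λ → Smp Λ₁ → Big Λ₁ →
  Dsc Λ₁ Γ → Dsc Λ₁ Λ → Bdy n Λ₁ Γ → Klt (n + 1) Γ → Nef (c • Λ - Γ) → Big (c • Λ - Γ) →
  ∀ β, Dsc Λ₁ β → Nef β → (∀ d : ℝ, Nef (d • Λ - β) → Dsc Λ β) ∧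
    (Dsc Λ β → ∀ A, AmpOn Λ A → AmpOn Λ (A + β))

/-- **FLD**: the field of a semiample b-divisor -/
structure FLD : Prop where
  cld : ForK fun _ K _ _ => ∀ Λ : BD K, Smp Λ → Cld (fld Λ)
  top : ForK fun _ K _ _ => ∀ Λ : BD K, Smp Λ → (Big Λ ↔ fld Λ = ⊤)
  ff : ForK fun _ K _ _ => ∀ Λ : BD K, FF (fld Λ) (dim Λ)
  down : ForK fun _ K _ _ => ∀ Λ : BD K, Smp Λ → ∃ Λ₀ : BD (fld Λ), Smp Λ₀ ∧ Big Λ₀ ∧
    Λ - pb (inc _) Λ₀ ∈ Prn K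
  des : ForK fun _ K _ _ => ∀ (L : IntermediateField ℂ K) (Λ₀ : BD L), Cld L → Smp Λ₀ → Big Λ₀ →
    fld (pb (inc L) Λ₀) = L ∧
      ∀ β, Dsc (pb (inc L) Λ₀) β ↔ ∃ β₀, Dsc Λ₀ β₀ ∧ β - pb (inc L) β₀ ∈ Prn K
  nd : ForK fun n K _ _ => ∀ (Λ A : BD K) (j : ℕ), Smp Λ → Nef A → Big A → j ≤ n →
    (0 < I n K (fun i => if i.1 < j then Λ else A) ↔ j ≤ dim Λ)
  le : ForK fun _ K _ _ => ∀ Λ Λ' : BD K, Smp Λ → Smp Λ' → Dsc Λ Λ' → fld Λ' ≤ fld Λ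
  cen : ForS fun n K _ _ => ∀ (Λ : BD K) (P Q : Pl K), Smp Λ → (On n Λ P ↔ cd Λ P = n) ∧
    (Hor (fld Λ) P ↔ ∀ R, CLe Λ R P) ∧
    (CLe Λ P Q → cd Λ P ≤ cd Λ Q ∧ (cd Λ P = cd Λ Q → CLe Λ Q P))

/-- **PB**: algebra homomorphisms -/
structure PB : Prop where
  lies : ∀ (n m : ℕ), ForH fun K K' _ _ _ _ φ => FF K n → FF K' m →
    (∀ c, φ (algebraMap ℂ K c) = algebraMap ℂ K' c) → ∀ P : Pl K',
      (∀ f, φ f ∈ P.ring) ∨ ∃ Q, Lies φ P Q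
  up : ∀ (n m : ℕ), ForH fun K K' _ _ _ _ φ => FF K n → FF K' m →
    (∀ c, φ (algebraMap ℂ K c) = algebraMap ℂ K' c) → ∀ Q : Pl K, ∃ P, Lies φ P Q
  rd : ForH fun _ _ _ _ _ _ φ => ∀ P Q, Lies φ P Q → ∃ ρ, IsRd φ P Q ρ
  rst : ∀ (n m : ℕ), ForH fun K K' _ _ _ _ φ => FF K (n + 1) → FF K' (m + 1) →
    (∀ c, φ (algebraMap ℂ K c) = algebraMap ℂ K' c) → ∀ P Q ρ, Lies φ P Q → IsRd φ P Q ρ →
      ∀ β ∈ Car K, res P (pb φ β) - pb ρ (res Q β) ∈ Prn P.κ ∧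
        (β Q = 0 → res P (pb φ β) = pb ρ (res Q β))
  hor : ∀ (n m : ℕ), ForH fun K K' _ _ _ _ φ => FF K n → FF K' (m + 1) →
    (∀ c, φ (algebraMap ℂ K c) = algebraMap ℂ K' c) → ∀ (P : Pl K') (ρ : K →+* P.κ),
      (∀ f, φ f ∈ P.ring) → (∀ f, ρ f = P.rd (φ f)) → ∀ β ∈ Car K, res P (pb φ β) = pb ρ β
  deg : ∀ (n : ℕ) (K K' : Type) [Field K] [Algebra ℂ K] [Field K'] [Algebra ℂ K'] [Algebra K K']
    [IsScalarTower ℂ K K'], FF K n → FF K' n → ∀ β : Fin n → BD K, (∀ j, IsB (n - 1) (β j)) →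
      (∀ j : Fin n, j.1 ≠ 0 → β j ∈ Car K) →
      I n K' (fun j => pb (algebraMap K K') (β j)) = Module.finrank K K' * I n K β
  low : ∀ (n m : ℕ), ForH fun K K' _ _ _ _ φ => FF K n → FF K' m →
    (∀ c, φ (algebraMap ℂ K c) = algebraMap ℂ K' c) → ∀ (β : Fin m → BD K') (J : Finset (Fin m)),
      n < J.card → (∀ j : Fin m, j.1 ≠ 0 → β j ∈ Car K') →
      (∀ j ∈ J, ∃ γ ∈ Car K, β j = pb φ γ) → I m K' β = 0
  hur : ∀ (n : ℕ), ForH fun K K' _ _ _ _ φ => FF K n → FF K' n →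
    (∀ c, φ (algebraMap ℂ K c) = algebraMap ℂ K' c) → ∃ f : K', f ≠ 0 ∧ ∀ P Q, Lies φ P Q →
      (cn K' n + dv f) P + 1 = P.ord (φ Q.t) * (cn K n Q + 1)

/-- the maps along which everything pulls back: algebra homomorphisms, generic fibres, constant
extensions, generic members and their compositions -/
def Gd {K K' : Type} [Field K] [Algebra ℂ K] [Field K'] [Algebra ℂ K'] (φ : K →+* K') : Prop :=
  Cst φ ∧ ∀ P : Pl K', (∀ f, φ f ∈ P.ring) ∨ ∃ Q, Lies φ P Q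

/-- **GD** -/
structure GD : Prop where
  ext : ∀ (n m : ℕ), ForH fun K K' _ _ _ _ φ => FF K n → FF K' m → Cst φ → Gd φ
  sys : ForH fun _ _ _ _ _ _ φ => Gd φ → ∀ s, pb φ (mx s) = mx (s.map ⟨φ, φ.injective⟩)
  pri : ForH fun _ _ _ _ _ _ φ => Gd φ → ∀ f, pb φ (dv f) = dv (φ f)
  comp : ∀ (K K' K'' : Type) [Field K] [Algebra ℂ K] [Field K'] [Algebra ℂ K'] [Field K'']
    [Algebra ℂ K''] (φ : K →+* K') (ψ : K' →+* K''), Gd φ → Gd ψ →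
      Gd (ψ.comp φ) ∧ ∀ β, pb (ψ.comp φ) β = pb ψ (pb φ β)
  mov : ∀ (n m : ℕ), ForH fun K K' _ _ _ _ φ => FF K n → FF K' m → Cst φ →
    Subfield.closure (range φ ∪ range (algebraMap ℂ K')) = ⊤ →
    ∃ f : K', f ≠ 0 ∧ pb φ (cn K n) ≤ cn K' m + dv f

/-- **GEN**: generic fibres, constant extensions, generic members -/
structure GEN : Prop where
  ex : ForK fun _ K _ _ => ∀ L : IntermediateField ℂ K, Cld L →
    ∃ (K' : Type) (_ : Field K') (_ : Algebra ℂ K') (φ : K →+* K'), GF L φ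
  ff : ∀ (m r : ℕ), ForH fun K K' _ _ _ _ φ => ∀ L, Ext L φ → FF L m → FF K (r + m) → FF K' r
  num : ∀ (m r : ℕ), ForH fun K K' _ _ _ _ φ => ∀ L, Ext L φ → FF L m → FF K (r + m) →
    ∀ (β : Fin r → BD K) (γ : Fin m → BD L), (∀ j, IsB (r + m - 1) (β j)) →
      (∀ j : Fin r, j.1 ≠ 0 → β j ∈ Car K) → (∀ j, γ j ∈ Car L) →
      I (r + m) K (Fin.append β fun j => pb (inc L) (γ j)) =
        I r K' (fun j => pb φ (β j)) * I m L γ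
  big : ∀ (n : ℕ), ForH fun K _ _ _ _ _ φ => ∀ L, Ext L φ → FF K n → ∀ (Λ₀ : BD L) (β : BD K),
    Smp Λ₀ → Big Λ₀ → β ∈ Car K →
      (Big (pb φ β) ↔ ∃ c : ℝ, Big (β + c • pb (inc L) Λ₀)) ∧
      (Eff (pb φ β) ↔ ∃ c : ℝ, Eff (β + c • pb (inc L) Λ₀))
  can : ∀ (m r : ℕ), ForH fun K K' _ _ _ _ φ => ∀ L, GF L φ → FF L m → FF K (r + m) →
    ∃ f : K', f ≠ 0 ∧ cn K' r + dv f = pb φ (cn K (r + m))
  orb : ∀ (n : ℕ), ForH fun K K' _ _ _ _ φ => ∀ L, GF L φ → FF K n →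
    (∀ P : Pl K', ∃ Q, Lies φ P Q ∧ Hor L Q ∧ P.ord (φ Q.t) = 1) ∧
    ∀ Q : Pl K, Hor L Q → {P | Lies φ P Q}.Finite ∧ {P | Lies φ P Q}.Nonempty ∧
      ∀ P P', Lies φ P Q → Lies φ P' Q → ∃ σ ∈ Gal φ, Lies (σ : K' →+* K') P' P
  on : ∀ (m r : ℕ), ForH fun K _ _ _ _ _ φ => ∀ L, GF L φ → FF L m → FF K (r + m + 1) →
    ∀ (Λ : BD K) (Λ₀ : BD L), Smp Λ → Big Λ → Smp Λ₀ → Big Λ₀ → Dsc Λ (pb (inc L) Λ₀) →
      ∀ P Q, Lies φ P Q → (On r (pb φ Λ) P ↔ On (r + m) Λ Q) ∧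
        cd Λ Q = cd (pb φ Λ) P + m
  tr : ∀ (n r : ℕ), ForH fun K K' _ _ _ _ φ => ∀ L, Ext L φ → FF K (n + 1) → FF K' (r + 1) →
    ∃ f, Tr n r φ 0 (fun Λ => ∃ Λ₀ : BD L, Smp Λ₀ ∧ Big Λ₀ ∧ Dsc Λ (pb (inc L) Λ₀)) f
  trm : ∀ (n : ℕ), ForH fun K K' _ _ _ _ φ => ∀ s, GM s φ → FF K (n + 2) → FF K' (n + 1) →
    ∃ f, Tr (n + 1) n φ (mx s) (fun Λ => Dsc Λ (mx s)) f
  pt : ForS fun n K _ _ => ∃ (K' : Type) (_ : Field K') (_ : Algebra ℂ K') (φ : K →+* K')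
    (x : Pl K'), Ext ⊥ φ ∧ FF K' (n + 1) ∧ GenPt n φ x
  gm : ForS fun n K _ _ => ∀ s : Finset K, 0 < dim (mx s) →
    ∃ (K' : Type) (_ : Field K') (_ : Algebra ℂ K') (φ : K →+* K') (c : ℕ), GM s φ ∧ FF K' n ∧
      0 < c ∧ (2 ≤ dim (mx s) → c = 1) ∧ ∀ β : Fin n → BD K, (∀ j, IsB n (β j)) →
        (∀ j : Fin n, j.1 ≠ 0 → β j ∈ Car K) →
        I (n + 1) K (Fin.snoc β (mx s)) = c * I n K' fun j => pb φ (β j)

/-- **ISO**: conjugation -/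
def ISO : Prop := ∀ (n : ℕ) (K K' : Type) [Field K] [Algebra ℂ K] [Field K'] [Algebra ℂ K']
  (σ : K ≃+* K'), FF K n → σ '' range (algebraMap ℂ K) = range (algebraMap ℂ K') →
    FF K' n ∧ (∀ P : Pl K', ∃! Q, Lies (σ : K →+* K') P Q) ∧
    (∀ Q, ∃! P : Pl K', Lies (σ : K →+* K') P Q) ∧
    (∀ β : Fin n → BD K, (∀ j : Fin n, j.1 ≠ 0 → β j ∈ Car K) →
      I n K' (fun j => pb (σ : K →+* K') (β j)) = I n K β) ∧
    (∀ β : BD K, h0 (pb (σ : K →+* K') β) = h0 β) ∧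
    pb (σ : K →+* K') (cn K n) - cn K' n ∈ range dv

/-- **ZAR**: finite generation of adjoint rings, as Zariski decompositions which are linear on
finitely many rational cones -/
def ZAR : Prop := ForS fun n K _ _ => ∀ (ι : Type) [Fintype ι] (Λ : BD K) (D Γ : ι → BD K),
  Smp Λ → Big Λ → (∀ i, CarQ (D i) ∧ Dsc Λ (D i) ∧ Γ i ∈ Car K ∧ Klt (n + 1) (Γ i) ∧
    Bdy n Λ (Γ i) ∧ Nef (D i - Γ i) ∧ Big (D i - Γ i)) →
  ∃ (N : (ι → ℝ) → BD K) (C : Finset (Finset (ι → ℕ))),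
    (∀ a, 0 ≤ a → (Psef (lc D a) ↔ ∃ c ∈ C, ∃ w : (ι → ℕ) → ℝ, 0 ≤ w ∧
      a = ∑ v ∈ c, w v • fun i => (v i : ℝ))) ∧
    (∀ a, 0 ≤ a → Psef (lc D a) → ZD (lc D a) (N a)) ∧
    (∀ c ∈ C, ∀ v ∈ c, CarQ (N fun i => v i)) ∧
    ∀ c ∈ C, ∀ w : (ι → ℕ) → ℝ, 0 ≤ w →
      N (∑ v ∈ c, w v • fun i => (v i : ℝ)) = ∑ v ∈ c, w v • N fun i => v i

/-- **FTN**: fields of Fano type -/
structure FTN : Prop where
  fin : ForK fun _ K _ _ => ∀ Λ : BD K, Smp Λ → ∃ T : Finset (BD K), (∀ β ∈ T, Dsc Λ β) ∧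
    ∀ β, Dsc Λ β → ∃ γ ∈ Submodule.span ℝ (T : Set (BD K)), Num (β - γ)
  num : ForS fun n K _ _ => FT K n → ∀ β : BD K, Num β → β ∈ Prn K
  pic : ForS fun n K _ _ => FT K n → ∀ Λ : BD K, Smp Λ → Module.Finite ℝ (Pic Λ)

/-- **CRV**: curves -/
def CRV : Prop := ∀ (K : Type) [Field K] [Algebra ℂ K], FF K 1 →
  I1 (cn K 1) = 2 * pg K 1 - 2 ∧ (pg K 1 = 0 ↔ Ruled (⊥ : IntermediateField ℂ K)) ∧
  ∀ D : BD K, IsZ D → IsB 0 D → (h0 D : ℝ) - h0 (cn K 1 - D) = I1 D + 1 - pg K 1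

/-- **CBF**: the canonical bundle inequality over a curve; `θ p` is at most one minus the log
canonical threshold of the fibre over `p` -/
def CBF : Prop := ForS fun n K _ _ => ∀ (L : IntermediateField ℂ K) (Γ : BD K) (D θ : BD L),
  FF L 1 → Γ ∈ Car K → IsB 0 D → IsB 0 θ → Klt (n + 1) Γ →
  Nef (pb (inc L) D - Γ) → Big (pb (inc L) D - Γ) →
  (∀ f : K, (∀ P, Hor L P → 0 ≤ (P.ord f : ℝ) + ⌈dsc (n + 1) Γ P⌉) → f ∈ L) →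
  (∀ p : Pl L, θ p < 1 ∧ ∃ P, Lies (inc L) P p ∧
    dsc (n + 1) Γ P + 1 ≤ (1 - θ p) * P.ord (inc L p.t)) →
  (∀ p : Pl L, ∀ P, Lies (inc L) P p → 0 < dsc (n + 1) Γ P + 1 + θ p * P.ord (inc L p.t)) →
  I1 (cn L 1 + θ) < I1 D

end Vale.Agent.P287D
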