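import Vale.Agent.P287D.Sk

/-!
# P287D: the rows for fields without subfields of dimension two and positive genus
-/

set_option linter.unusedVariables false

open Set

noncomputable section

namespace Vale.Agent.P287D

/-- all subfields of dimension two have `p_g = 0` -/
def Pg0 (K : Type) [Field K] [Algebra ℂ K] : Prop :=
  ∀ L : IntermediateField ℂ K, FF L 2 → pg L 2 = 0

/-- **DP'**: links of the generic fibre over a surface -/
def DP' : Prop := ForL fun S K _ _ R _ Λ B Γ E => Pg0 K → dim R = 2 → (∀ i, Mv R (B i) (E i)) →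
  ind (SE S (E 0)) + ind (PotR S R (Λ 0) (B 0) (Γ 0)) =
    ind (SE S (E 1)) + ind (PotR S R (Λ 1) (B 1) (Γ 1))

/-- **LNK'**: the count of one link -/
def LNK' : Prop := ForL fun S K _ _ _ _ Λ B Γ E => Pg0 K →
  ind (SE S (E 0)) + ind (Pot S (Λ 0) (B 0) (Γ 0)) =
    ind (SE S (E 1)) + ind (Pot S (Λ 1) (B 1) (Γ 1))

/-- **SARK'**: the count vanishes -/
def SARK' : Prop := ∃ d₀ : ℕ, ∀ d, d₀ ≤ d → ∀ S, SCl d S → ∀ (K : Type) [Field K] [Algebra ℂ K],
  FF K 4 → Pg0 K → ∀ Λ Λ' : BD K, Fano1 3 Λ → Fano1 3 Λ' → cnt S Λ Λ' = cnt S Λ' Λ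

theorem lnk_of' (dm : DIM) (loc : LOC) (sc0 : SC0) (sc1 : SC1) (vrt : VRT) (cb3 : CB3) (sym : SYM)
    (dp : DP') (chg : CHG) (hd2 : HD2) (hd3 : HD3) : LNK' := by
  refine ((((((((((loc.and sc0).and sc1).and vrt).and cb3).and sym).and dp).and chg).and hd2).and
    hd3)).mono ?_
  rintro S K _ _ hK hF ⟨⟨⟨⟨⟨⟨⟨⟨⟨loc, sc0⟩, sc1⟩, vrt⟩, cb3⟩, sym⟩, dp⟩, chg⟩, hd2⟩, hd3⟩
    R A Λ B Γ E h h0
  have dm := dm K hK R A Λ B Γ E h
  have sc0 := sc0 R A Λ B Γ E h
  have sc1 := sc1 R A Λ B Γ E h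
  have vrt := vrt R A Λ B Γ E h
  have cb3 := cb3 R A Λ B Γ E h
  have sym := sym R A Λ B Γ E h
  have dp := dp R A Λ B Γ E h h0
  have chg := chg R A Λ B Γ E h
  have hd2 := hd2 R A Λ B Γ E h
  have hd3 := hd3 R A Λ B Γ E h
  have two : ∀ i P, E i = some P → SDiv S P.κ → cd (Λ i) P = 2 := fun i P e s => by
    obtain ⟨-, Y, ΓY, x⟩ := h.ext i P e
    have a := ((dm i).2.2.2 P e).2
    by_contra c
    exact loc Y ΓY _ _ P x (h.mfs i).term (h.mfs i).qf (by omega) s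
  have r3 : dim R ≤ 3 := (dm 0).1.trans (dm 0).2.1
  rcases Nat.lt_or_ge (dim R) 2 with r | r
  · have a : ∀ i, ¬ SE S (E i) := by
      rintro i ⟨P, e, s⟩
      rcases Nat.lt_or_ge (dim R) 1 with q | q
      · exact sc0 (by omega) i P e (two i P e s) s
      · exact sc1 (by omega) i P e (two i P e s) s
    have b : ∀ i, ¬ Pot S (Λ i) (B i) (Γ i) := by
      rintro i (⟨u, v⟩ | ⟨u, L, v⟩)
      · exact hd2 (by omega) i u v
      · exact hd3 (by omega) i u L v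
    rw [ind_neg (a 0), ind_neg (a 1), ind_neg (b 0), ind_neg (b 1)]
  rcases r.eq_or_lt with r | r
  · by_cases m : ∀ i, Mv R (B i) (E i)
    · have b : ∀ i, Pot S (Λ i) (B i) (Γ i) ↔ PotR S R (Λ i) (B i) (Γ i) := fun i =>
        or_congr_right (and_congr_right fun u =>
          ⟨fun ⟨L, v⟩ => chg r.symm i u L v ▸ v, fun v => ⟨_, v⟩⟩)
      rw [ind_congr (b 0), ind_congr (b 1)]
      exact dp r.symm m
    · obtain ⟨i, hi⟩ := not_forall.1 m
      have m' : ∀ j, ¬ Mv R (B j) (E j) := fun j => (sym r.symm i j hi).1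
      have a : ∀ i, ¬ SE S (E i) := by
        rintro i ⟨P, e, s⟩
        exact vrt r.symm i P e (fun c => m' i (.inr ⟨P, e, c⟩)) (two i P e s) s
      have d2 : ∀ j, dim (B j) = 2 := fun j => by
        have u := (dm j).1
        have v := (dm j).2.1
        have w : dim (B j) ≠ 3 := fun c => m' j (.inl c)
        omega
      have b : ∀ i j, Pot S (Λ i) (B i) (Γ i) → Pot S (Λ j) (B j) (Γ j) := by
        rintro i j (⟨u, v⟩ | ⟨u, -⟩)
        · exact .inl ⟨d2 j, (sym r.symm i j (m' i)).2 v⟩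
        · exact absurd (.inl u) (m' i)
      rw [ind_neg (a 0), ind_neg (a 1), ind_congr ⟨b 0 1, b 1 0⟩]
  · have r' : dim R = 3 := by omega
    have d3 : ∀ j, dim (B j) = 3 := fun j => by
      have u := (dm j).1
      have v := (dm j).2.1
      omega
    have f : ∀ j, fld R = fld (B j) := fun j => (dm j).2.2.1 (r'.trans (d3 j).symm)
    have a : ∀ i j, i ≠ j → SE S (E i) → SE S (E j) := by
      rintro i j n ⟨P, e, s⟩
      exact cb3 r' i j P n e (two i P e s) s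
    have b : ∀ i j, Pot S (Λ i) (B i) (Γ i) → Pot S (Λ j) (B j) (Γ j) := by
      rintro i j (⟨u, -⟩ | ⟨-, v⟩)
      · have := d3 i
        omega
      · exact .inr ⟨d3 j, f j ▸ (f i).symm ▸ v⟩
    rw [ind_congr ⟨a 0 1 (by decide), a 1 0 (by decide)⟩, ind_congr ⟨b 0 1, b 1 0⟩]

theorem sark_of' (md : MOD) (geo : GEOS) (lnk : LNK') : SARK' := by
  obtain ⟨d₀, lnk⟩ := lnk
  refine ⟨d₀, fun d hd S hS K _ _ hK h0 Λ Λ' h h' => ?_⟩
  obtain ⟨hF, B, Γ, X, B', Γ', b, b', hX, c⟩ := geo K hK Λ Λ' h h'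
  let s : Set (Pl K) := {P | SDiv S P.κ}
  let o : BD K → Set (Pl K) := fun X => {P | On 3 X P} ∩ s
  have fin : ∀ X X' : BD K, Smp X ∧ Big X → Smp X' ∧ Big X' → (o X \ o X').Finite :=
    fun X X' p q => (md.exc 3 K hK X X' p.1 p.2 q.1 q.2).subset fun P hP =>
      ⟨hP.1.1, fun r => hP.2 ⟨r, hP.1.2⟩⟩
  obtain ⟨G, g, -⟩ := h.term
  have key : ∀ y : BD K × BD K × BD K, Relation.ReflTransGen (Step 3) (Λ, B, Γ) y →
      (Smp y.1 ∧ Big y.1) ∧ sd (o Λ) (o y.1) = ind (Pot S Λ B Γ) - ind (Pot S y.1 y.2.1 y.2.2) := by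
    intro y hy
    induction hy with
    | refl => exact ⟨⟨g.smp, g.big⟩, by simp [sd]⟩
    | @tail y z _ st ih =>
      obtain ⟨R, A, E, l⟩ := st
      have p : Smp z.1 ∧ Big z.1 := ⟨(l.mfs 1).term.smp, (l.mfs 1).term.big⟩
      have e := lnk d hd S hS K hK hF R A _ _ _ E l h0
      have t := sd_step (a := {P | On 3 y.1 P}) (b := {P | On 3 z.1 P}) (s := s) (u := E 0)
        (v := E 1) (fun P => (l.zero 0 P).symm.trans (l.zero 1 P))
        (fun P q => let ⟨_, _, _, x⟩ := l.ext 0 P q; x.off)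
        (fun P q => let ⟨_, _, _, x⟩ := l.ext 1 P q; x.off)
      refine ⟨p, ?_⟩
      rw [sd_add (fin _ _ ⟨g.smp, g.big⟩ ih.1) (fin _ _ ih.1 ⟨g.smp, g.big⟩) (fin _ _ ih.1 p)
        (fin _ _ p ih.1), ih.2]
      change _ + sd (_ ∩ s) (_ ∩ s) = _
      rw [t]
      change ind (SE S (E 0)) + ind (Pot S y.1 y.2.1 y.2.2) =
        ind (SE S (E 1)) + ind (Pot S z.1 z.2.1 z.2.2) at e
      change _ + (ind (SE S (E 1)) - ind (SE S (E 0))) = _
      linarith
  have z := (key _ c).2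
  rw [ind_neg (p := Pot S X B' Γ') (by rintro (⟨u, -⟩ | ⟨u, -⟩) <;> omega),
    ind_neg (p := Pot S Λ B Γ) (by rintro (⟨u, -⟩ | ⟨u, -⟩) <;> omega),
    show o X = o Λ' from congrArg (· ∩ s) (Set.ext hX)] at z
  have e : ∀ X X' : BD K, cnt S X X' = (o X \ o X').ncard := fun X X' => by
    refine congrArg _ (Set.ext fun P => ?_)
    simp only [o, s, mem_ofPred_eq, mem_sdiff, mem_inter_iff]
    tauto
  rw [e, e]
  simp only [sd] at z
  omega

end Vale.Agent.P287D
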