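import Vale.Agent.P287D.St

/-!
# P287D: links, potentials, the rows of the argument and the assembly of `SARK`
-/

set_option linter.unusedVariables false

open Set

noncomputable section

namespace Vale.Agent.P287D

section defs

variable {K K' : Type} [Field K] [Algebra ℂ K] [Field K'] [Algebra ℂ K']

/-- `V Λ → V B` is a terminal Mori fibre space, `Γ` is the pull back of `K_V` -/
structure MFS (n : ℕ) (Λ B Γ : BD K) : Prop where
  term : Term n Λ Γ
  qf : QF n Λ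
  smp : Smp B
  des : Dsc Λ B
  nbig : ¬ Big B
  rk : rho Λ = rho B + 1
  neg : ∃ c : ℝ, AmpOn Λ (c • B - Γ)

/-- `V Y → V Λ` is the terminal extraction of `E` -/
structure Xtr (n : ℕ) (Y ΓY Λ : BD K) (E : Pl K) : Prop where
  term : Term n Y ΓY
  qf : QF n Y
  smp : Smp Λ
  big : Big Λ
  des : Dsc Y Λ
  off : ¬ On n Λ E
  on : ∀ Q, On n Y Q ↔ On n Λ Q ∨ Q = E
  neg : ∃ c : ℝ, AmpOn Y (c • Λ - ΓY)
  anti : ∃ (c : ℝ) (β : BD K), Hull n Y E.δ β ∧ AmpOn Y (c • Λ - β)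

/-- a vertex of the geography: two Mori fibre spaces over `V R`; `K + A = R + dsc (R - A)` -/
structure Link (n : ℕ) (R A : BD K) (Λ B Γ : Fin 2 → BD K) (E : Fin 2 → Option (Pl K)) :
    Prop where
  smp : Smp R
  rat : CarQ R ∧ CarQ A
  nef : Smp A
  big : Big A
  top : ∃ ΓW, Term n A ΓW ∧ QF n A ∧ ∀ P, dsc (n + 1) (R - A) P = 0 → On n A P
  nn : 0 ≤ dsc (n + 1) (R - A)
  mfs : ∀ i, MFS n (Λ i) (B i) (Γ i)
  down : ∀ i, Dsc (B i) R
  zero : ∀ i P, dsc (n + 1) (R - A) P = 0 ↔ On n (Λ i) P ∨ E i = some P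
  ext : ∀ i P, E i = some P → AmpOn (B i) R ∧ ∃ Y ΓY, Xtr n Y ΓY (Λ i) P
  fib : ∀ i, E i = none → rho (B i) = rho R + 1
  ne : ¬ (AmpOn (Λ 0) (Λ 1) ∧ AmpOn (B 0) (B 1))

/-- the field of the constants fixed by `H` belongs to the class -/
def STyp (S : Cls) (L : IntermediateField ℂ K) (φ : K →+* K') (H : Set (K' ≃+* K')) : Prop :=
  ∃ (M : Type) (_ : Field M) (_ : Algebra ℂ M) (ι : L →ₐ[ℂ] M) (j : M →+* K'),
    (∀ a : L, j (ι a) = φ a) ∧
    range j = {x | x ∈ range (algebraMap ℂ K') ∧ ∀ σ ∈ H, σ x = x} ∧ S M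

/-- `σ` fixes the class of `f` -/
def Fixes (σ : K' ≃+* K') (f : BD K') : Prop := Num (pb (σ : K' →+* K') f - f)

/-- the potential of a del Pezzo fibration over a surface: the degree is five or six and an orbit
of conic classes is of type S -/
def Pot2 (S : Cls) (Λ B Γ : BD K) : Prop :=
  ∃ (K' : Type) (_ : Field K') (_ : Algebra ℂ K') (φ : K →+* K') (f : BD K'), GF (fld B) φ ∧
    (I2 (pb φ Γ) (pb φ Γ) = 5 ∨ I2 (pb φ Γ) (pb φ Γ) = 6) ∧ f ∈ CarZ K' ∧ Dsc (pb φ Λ) f ∧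
    I2 f f = 0 ∧ I2 (pb φ Γ) f = -2 ∧ STyp S (fld B) φ {σ | σ ∈ Gal φ ∧ Fixes σ f}

/-- `X` is a smooth invariant model of the generic fibre, a conic bundle with the fibre class `f`
and three singular fibres `e i + (f - e i)`, whose components are conjugate -/
structure CB5 (φ : K →+* K') (L₃ : IntermediateField ℂ K) (X k f : BD K') (e : Fin 3 → BD K') :
    Prop where
  term : Term 1 X k
  inv : ∀ σ ∈ Gal φ, AmpOn X (pb (σ : K' →+* K') X)
  deg : I2 k k = 5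
  car : f ∈ CarZ K'
  smp : Smp f
  des : Dsc X f
  sq : I2 f f = 0
  kf : I2 k f = -2
  base : ∀ a ∈ L₃, φ a ∈ fld f
  ecar : ∀ i, e i ∈ CarZ K' ∧ Dsc X (e i)
  ee : ∀ i j, I2 (e i) (e j) = if i = j then -1 else 0
  ke : ∀ i, I2 k (e i) = -1
  fe : ∀ i, I2 f (e i) = 0
  swap : ∀ i, ∃ σ ∈ Gal φ, Num (pb (σ : K' →+* K') (e i) - (f - e i))
  sec : ∃ s ∈ CarZ K', Dsc X s ∧ I2 f s = 1 ∧ I2 s s = -1 ∧ I2 k s = -1
  amp : AmpOn X (-k)

/-- the potential of a conic bundle over `L₃`, seen from the surface `L₂` -/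
def Pot3' (S : Cls) (L₂ L₃ : IntermediateField ℂ K) : Prop :=
  L₂ ≤ L₃ ∧ Cld L₂ ∧ FF L₂ 2 ∧
  ∃ (K' : Type) (_ : Field K') (_ : Algebra ℂ K') (φ : K →+* K') (X k f : BD K')
    (e : Fin 3 → BD K'), GF L₂ φ ∧ CB5 φ L₃ X k f e ∧
    STyp S L₂ φ {σ | σ ∈ Gal φ ∧ (Fixes σ (∑ i, e i) ∨
      Num (pb (σ : K' →+* K') (∑ i, e i) - ((3 : ℝ) • f - ∑ i, e i)))}

/-- the potential of a Mori fibre space -/
def Pot (S : Cls) (Λ B Γ : BD K) : Prop :=
  (dim B = 2 ∧ Pot2 S Λ B Γ) ∨ (dim B = 3 ∧ ∃ L₂, Pot3' S L₂ (fld B))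

/-- the extracted divisor is of type S -/
def SE (S : Cls) (E : Option (Pl K)) : Prop := ∃ P, E = some P ∧ SDiv S P.κ

/-- the side of a link over a surface changes the generic fibre -/
def Mv (R B : BD K) (E : Option (Pl K)) : Prop := dim B = 3 ∨ ∃ P, E = some P ∧ Hor (fld R) P

/-- the potential seen from the base of a link over a surface -/
def PotR (S : Cls) (R Λ B Γ : BD K) : Prop :=
  (dim B = 2 ∧ Pot2 S Λ B Γ) ∨ (dim B = 3 ∧ Pot3' S (fld R) (fld B))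

open Classical in
/-- the indicator -/
def ind (p : Prop) : ℤ := if p then 1 else 0

/-- one step -/
def Step (n : ℕ) (x y : BD K × BD K × BD K) : Prop :=
  ∃ R A E, Link n R A ![x.1, y.1] ![x.2.1, y.2.1] ![x.2.2, y.2.2] E

end defs

/-- a statement for all large degrees and all fourfolds of Fano type -/
def ForD (P : Cls → ∀ (K : Type) [Field K] [Algebra ℂ K], Prop) : Prop :=
  ∃ d₀ : ℕ, ∀ d, d₀ ≤ d → ∀ S, SCl d S → ∀ (K : Type) [Field K] [Algebra ℂ K], FF K 4 → FT K 3 →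
    P S K

/-- a statement for all links -/
def ForL (P : Cls → ∀ (K : Type) [Field K] [Algebra ℂ K] (R A : BD K) (Λ B Γ : Fin 2 → BD K)
    (E : Fin 2 → Option (Pl K)), Prop) : Prop :=
  ForD fun S K _ _ => ∀ R A Λ B Γ E, Link 3 R A Λ B Γ E → P S K R A Λ B Γ E

/-- **GEOS**: two Fano varieties of Picard number one are joined by links -/
def GEOS : Prop := ∀ (K : Type) [Field K] [Algebra ℂ K], FF K 4 → ∀ Λ Λ' : BD K, Fano1 3 Λ →
  Fano1 3 Λ' → FT K 3 ∧ ∃ B Γ X B' Γ', dim B = 0 ∧ dim B' = 0 ∧ (∀ P, On 3 X P ↔ On 3 Λ' P) ∧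
    Relation.ReflTransGen (Step 3) (Λ, B, Γ) (X, B', Γ')

/-- **DIM**: the dimensions in a link -/
def DIM : Prop := ∀ (K : Type) [Field K] [Algebra ℂ K], FF K 4 → ∀ (R A : BD K) Λ B Γ E,
  Link 3 R A Λ B Γ E → ∀ i, dim R ≤ dim (B i) ∧ dim (B i) ≤ 3 ∧
    (dim R = dim (B i) → fld R = fld (B i)) ∧ ∀ P, E i = some P → dim R = dim (B i) ∧ cd (Λ i) P ≤ 2

/-- **LOC**: centres of dimension at most one -/
def LOC : Prop := ForD fun S K _ _ => ∀ (Y ΓY Λ Γ : BD K) (E : Pl K), Xtr 3 Y ΓY Λ E →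
  Term 3 Λ Γ → QF 3 Λ → cd Λ E ≤ 1 → ¬ SDiv S E.κ

/-- **SC0**: surface centres, links over a point -/
def SC0 : Prop := ForL fun S _ _ _ R _ Λ _ _ E => dim R = 0 → ∀ i P, E i = some P →
  cd (Λ i) P = 2 → ¬ SDiv S P.κ

/-- **SC1**: surface centres, links over a curve -/
def SC1 : Prop := ForL fun S _ _ _ R _ Λ _ _ E => dim R = 1 → ∀ i P, E i = some P →
  cd (Λ i) P = 2 → ¬ SDiv S P.κ

/-- **VRT**: surface centres, vertical divisors over a surface -/
def VRT : Prop := ForL fun S _ _ _ R _ Λ _ _ E => dim R = 2 → ∀ i P, E i = some P →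
  ¬ Hor (fld R) P → cd (Λ i) P = 2 → ¬ SDiv S P.κ

/-- **CB3**: links of conic bundles over a threefold -/
def CB3 : Prop := ForL fun S _ _ _ R _ Λ _ _ E => dim R = 3 → ∀ i j P, i ≠ j → E i = some P →
  cd (Λ i) P = 2 → SDiv S P.κ → SE S (E j)

/-- **SYM**: links over a surface which do not change the generic fibre -/
def SYM : Prop := ForL fun S _ _ _ R _ Λ B Γ E => dim R = 2 → ∀ i j, ¬ Mv R (B i) (E i) →
  ¬ Mv R (B j) (E j) ∧ (Pot2 S (Λ i) (B i) (Γ i) → Pot2 S (Λ j) (B j) (Γ j))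

/-- **DP**: links of the generic fibre over a surface -/
def DP : Prop := ForL fun S _ _ _ R _ Λ B Γ E => dim R = 2 → (∀ i, Mv R (B i) (E i)) →
  ind (SE S (E 0)) + ind (PotR S R (Λ 0) (B 0) (Γ 0)) =
    ind (SE S (E 1)) + ind (PotR S R (Λ 1) (B 1) (Γ 1))

/-- **CHG**: change of the ruling of the base -/
def CHG : Prop := ForL fun S _ _ _ R _ _ B _ E => dim R = 2 → ∀ i, dim (B i) = 3 →
  ∀ L₂, Pot3' S L₂ (fld (B i)) → L₂ = fld R

/-- **HD2**: hidden del Pezzo fibrations -/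
def HD2 : Prop := ForL fun S _ _ _ R _ Λ B Γ _ => dim R ≤ 1 → ∀ i, dim (B i) = 2 →
  ¬ Pot2 S (Λ i) (B i) (Γ i)

/-- **HD3**: hidden conic bundles -/
def HD3 : Prop := ForL fun S _ _ _ R _ _ B _ _ => dim R ≤ 1 → ∀ i, dim (B i) = 3 →
  ∀ L₂, ¬ Pot3' S L₂ (fld (B i))

/-- **LNK**: the count of one link -/
def LNK : Prop := ForL fun S _ _ _ _ _ Λ B Γ E =>
  ind (SE S (E 0)) + ind (Pot S (Λ 0) (B 0) (Γ 0)) =
    ind (SE S (E 1)) + ind (Pot S (Λ 1) (B 1) (Γ 1))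

theorem ForD.and {P Q : Cls → ∀ (K : Type) [Field K] [Algebra ℂ K], Prop} (h : ForD P)
    (h' : ForD Q) : ForD fun S K _ _ => P S K ∧ Q S K := by
  obtain ⟨a, ha⟩ := h
  obtain ⟨b, hb⟩ := h'
  exact ⟨max a b, fun d hd S hS K _ _ h1 h2 =>
    ⟨ha d (le_of_max_le_left hd) S hS K h1 h2, hb d (le_of_max_le_right hd) S hS K h1 h2⟩⟩

theorem ForD.mono {P Q : Cls → ∀ (K : Type) [Field K] [Algebra ℂ K], Prop} (h : ForD P)
    (h' : ∀ S (K : Type) [Field K] [Algebra ℂ K], FF K 4 → FT K 3 → P S K → Q S K) : ForD Q := by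
  obtain ⟨a, ha⟩ := h
  exact ⟨a, fun d hd S hS K _ _ h1 h2 => h' S K h1 h2 (ha d hd S hS K h1 h2)⟩

theorem ind_congr {p q : Prop} (h : p ↔ q) : ind p = ind q := by rw [propext h]

theorem ind_neg {p : Prop} (h : ¬ p) : ind p = 0 := by simp [ind, h]

theorem lnk_of (dm : DIM) (loc : LOC) (sc0 : SC0) (sc1 : SC1) (vrt : VRT) (cb3 : CB3) (sym : SYM)
    (dp : DP) (chg : CHG) (hd2 : HD2) (hd3 : HD3) : LNK := by
  refine ((((((((((loc.and sc0).and sc1).and vrt).and cb3).and sym).and dp).and chg).and hd2).and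
    hd3)).mono ?_
  rintro S K _ _ hK hF ⟨⟨⟨⟨⟨⟨⟨⟨⟨loc, sc0⟩, sc1⟩, vrt⟩, cb3⟩, sym⟩, dp⟩, chg⟩, hd2⟩, hd3⟩
    R A Λ B Γ E h
  have dm := dm K hK R A Λ B Γ E h
  have sc0 := sc0 R A Λ B Γ E h
  have sc1 := sc1 R A Λ B Γ E h
  have vrt := vrt R A Λ B Γ E h
  have cb3 := cb3 R A Λ B Γ E h
  have sym := sym R A Λ B Γ E h
  have dp := dp R A Λ B Γ E h
  have chg := chg R A Λ B Γ E h
  have hd2 := hd2 R A Λ B Γ E h
  have hd3 := hd3 R A Λ B Γ E h
  have two : ∀ i P, E i = some P → SDiv S P.κ → cd (Λ i) P = 2 := fun i P e s => by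
    obtain ⟨-, Y, ΓY, x⟩ := h.ext i P e
    have a := ((dm i).2.2.2 P e).2
    by_contra c
    exact loc Y ΓY _ _ P x (h.mfs i).term (h.mfs i).qf (by omega) s
  have r3 : dim R ≤ 3 := (dm 0).1.trans (dm 0).2.1
  rcases Nat.lt_or_ge (dim R) 2 with r | r
  · have a : ∀ i, ¬ SE S (E i) := by
      rintro i ⟨P, e, s⟩
      rcases Nat.lt_or_ge (dim R) 1 with q | q
      · exact sc0 (by omega) i P e (two i P e s) s
      · exact sc1 (by omega) i P e (two i P e s) s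
    have b : ∀ i, ¬ Pot S (Λ i) (B i) (Γ i) := by
      rintro i (⟨u, v⟩ | ⟨u, L, v⟩)
      · exact hd2 (by omega) i u v
      · exact hd3 (by omega) i u L v
    rw [ind_neg (a 0), ind_neg (a 1), ind_neg (b 0), ind_neg (b 1)]
  rcases r.eq_or_lt with r | r
  · by_cases m : ∀ i, Mv R (B i) (E i)
    · have b : ∀ i, Pot S (Λ i) (B i) (Γ i) ↔ PotR S R (Λ i) (B i) (Γ i) := fun i =>
        or_congr_right (and_congr_right fun u =>
          ⟨fun ⟨L, v⟩ => chg r.symm i u L v ▸ v, fun v => ⟨_, v⟩⟩)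
      rw [ind_congr (b 0), ind_congr (b 1)]
      exact dp r.symm m
    · obtain ⟨i, hi⟩ := not_forall.1 m
      have m' : ∀ j, ¬ Mv R (B j) (E j) := fun j => (sym r.symm i j hi).1
      have a : ∀ i, ¬ SE S (E i) := by
        rintro i ⟨P, e, s⟩
        exact vrt r.symm i P e (fun c => m' i (.inr ⟨P, e, c⟩)) (two i P e s) s
      have d2 : ∀ j, dim (B j) = 2 := fun j => by
        have u := (dm j).1
        have v := (dm j).2.1
        have w : dim (B j) ≠ 3 := fun c => m' j (.inl c)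
        omega
      have b : ∀ i j, Pot S (Λ i) (B i) (Γ i) → Pot S (Λ j) (B j) (Γ j) := by
        rintro i j (⟨u, v⟩ | ⟨u, -⟩)
        · exact .inl ⟨d2 j, (sym r.symm i j (m' i)).2 v⟩
        · exact absurd (.inl u) (m' i)
      rw [ind_neg (a 0), ind_neg (a 1), ind_congr ⟨b 0 1, b 1 0⟩]
  · have r' : dim R = 3 := by omega
    have d3 : ∀ j, dim (B j) = 3 := fun j => by
      have u := (dm j).1
      have v := (dm j).2.1
      omega
    have f : ∀ j, fld R = fld (B j) := fun j => (dm j).2.2.1 (r'.trans (d3 j).symm)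
    have a : ∀ i j, i ≠ j → SE S (E i) → SE S (E j) := by
      rintro i j n ⟨P, e, s⟩
      exact cb3 r' i j P n e (two i P e s) s
    have b : ∀ i j, Pot S (Λ i) (B i) (Γ i) → Pot S (Λ j) (B j) (Γ j) := by
      rintro i j (⟨u, -⟩ | ⟨-, v⟩)
      · have := d3 i
        omega
      · exact .inr ⟨d3 j, f j ▸ (f i).symm ▸ v⟩
    rw [ind_congr ⟨a 0 1 (by decide), a 1 0 (by decide)⟩, ind_congr ⟨b 0 1, b 1 0⟩]

/-- the signed difference of two sets -/
def sd {α : Type} (a b : Set α) : ℤ := ((a \ b).ncard : ℤ) - (b \ a).ncard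

theorem sd_eq {α : Type} {a b : Set α} (T : Finset α) (h : a \ b ⊆ T) (h' : b \ a ⊆ T) :
    sd a b = ∑ x ∈ T, (ind (x ∈ a) - ind (x ∈ b)) := by
  classical
  have k : ∀ u : Set α, u ⊆ T → (u.ncard : ℤ) = ∑ x ∈ T, ind (x ∈ u) := fun u hu => by
    have e : u = ↑(T.filter (· ∈ u)) := by
      ext x
      simpa using fun q => hu q
    conv_lhs => rw [e, ncard_coe_finset, Finset.card_filter]
    push_cast
    exact Finset.sum_congr rfl fun x _ => by simp [ind]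
  rw [sd, k _ h, k _ h', ← Finset.sum_sub_distrib]
  refine Finset.sum_congr rfl fun x _ => ?_
  by_cases p : x ∈ a <;> by_cases q : x ∈ b <;> simp [ind, p, q]

theorem sd_add {α : Type} {a b c : Set α} (h1 : (a \ b).Finite) (h2 : (b \ a).Finite)
    (h3 : (b \ c).Finite) (h4 : (c \ b).Finite) : sd a c = sd a b + sd b c := by
  classical
  have f := ((h1.union h2).union h3).union h4
  have s : ∀ u, u ⊆ (a \ b ∪ b \ a) ∪ b \ c ∪ c \ b → u ⊆ f.toFinset := fun u hu => by simpa using hu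
  rw [sd_eq f.toFinset (s _ ?_) (s _ ?_), sd_eq f.toFinset (s _ ?_) (s _ ?_),
    sd_eq f.toFinset (s _ ?_) (s _ ?_), ← Finset.sum_add_distrib]
  · exact Finset.sum_congr rfl fun x _ => by ring
  all_goals
    intro x hx
    simp only [mem_union, mem_sdiff] at hx ⊢
    tauto

theorem sd_step {α : Type} {a b s : Set α} {u v : Option α}
    (h : ∀ x, x ∈ a ∨ u = some x ↔ x ∈ b ∨ v = some x) (hu : ∀ x, u = some x → x ∉ a)
    (hv : ∀ x, v = some x → x ∉ b) : sd (a ∩ s) (b ∩ s) =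
      ind (∃ x, v = some x ∧ x ∈ s) - ind (∃ x, u = some x ∧ x ∈ s) := by
  classical
  have k : ∀ w : Option α, w.toFinset ⊆ u.toFinset ∪ v.toFinset → ind (∃ x, w = some x ∧ x ∈ s) =
      ∑ x ∈ u.toFinset ∪ v.toFinset, ind (w = some x ∧ x ∈ s) := by
    rintro (_ | y) hw
    · simp [ind]
    · rw [Finset.sum_eq_single_of_mem y (hw (by simp)) fun z _ n => ind_neg fun q =>
        n (Option.some.inj q.1).symm]
      exact ind_congr (by simp)
  rw [sd_eq (u.toFinset ∪ v.toFinset), k u Finset.subset_union_left,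
    k v Finset.subset_union_right, ← Finset.sum_sub_distrib]
  · refine Finset.sum_congr rfl fun x _ => ?_
    have := h x
    have := hu x
    have := hv x
    by_cases p : x ∈ a <;> by_cases q : x ∈ b <;> by_cases r : x ∈ s <;>
      by_cases p' : u = some x <;> by_cases q' : v = some x <;> simp_all [ind]
  · intro x hx
    have := (h x).1 (.inl hx.1.1)
    have : v = some x := this.resolve_left fun q => hx.2 ⟨q, hx.1.2⟩
    simp [this]
  · intro x hx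
    have := (h x).2 (.inl hx.1.1)
    have : u = some x := this.resolve_left fun q => hx.2 ⟨q, hx.1.2⟩
    simp [this]

theorem sark_of (md : MOD) (geo : GEOS) (lnk : LNK) : SARK := by
  obtain ⟨d₀, lnk⟩ := lnk
  refine ⟨d₀, fun d hd S hS K _ _ hK Λ Λ' h h' => ?_⟩
  obtain ⟨hF, B, Γ, X, B', Γ', b, b', hX, c⟩ := geo K hK Λ Λ' h h'
  let s : Set (Pl K) := {P | SDiv S P.κ}
  let o : BD K → Set (Pl K) := fun X => {P | On 3 X P} ∩ s
  have fin : ∀ X X' : BD K, Smp X ∧ Big X → Smp X' ∧ Big X' → (o X \ o X').Finite :=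
    fun X X' p q => (md.exc 3 K hK X X' p.1 p.2 q.1 q.2).subset fun P hP =>
      ⟨hP.1.1, fun r => hP.2 ⟨r, hP.1.2⟩⟩
  obtain ⟨G, g, -⟩ := h.term
  have key : ∀ y : BD K × BD K × BD K, Relation.ReflTransGen (Step 3) (Λ, B, Γ) y →
      (Smp y.1 ∧ Big y.1) ∧ sd (o Λ) (o y.1) = ind (Pot S Λ B Γ) - ind (Pot S y.1 y.2.1 y.2.2) := by
    intro y hy
    induction hy with
    | refl => exact ⟨⟨g.smp, g.big⟩, by simp [sd]⟩
    | @tail y z _ st ih =>
      obtain ⟨R, A, E, l⟩ := st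
      have p : Smp z.1 ∧ Big z.1 := ⟨(l.mfs 1).term.smp, (l.mfs 1).term.big⟩
      have e := lnk d hd S hS K hK hF R A _ _ _ E l
      have t := sd_step (a := {P | On 3 y.1 P}) (b := {P | On 3 z.1 P}) (s := s) (u := E 0)
        (v := E 1) (fun P => (l.zero 0 P).symm.trans (l.zero 1 P))
        (fun P q => let ⟨_, _, _, x⟩ := l.ext 0 P q; x.off)
        (fun P q => let ⟨_, _, _, x⟩ := l.ext 1 P q; x.off)
      refine ⟨p, ?_⟩
      rw [sd_add (fin _ _ ⟨g.smp, g.big⟩ ih.1) (fin _ _ ih.1 ⟨g.smp, g.big⟩) (fin _ _ ih.1 p)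
        (fin _ _ p ih.1), ih.2]
      change _ + sd (_ ∩ s) (_ ∩ s) = _
      rw [t]
      change ind (SE S (E 0)) + ind (Pot S y.1 y.2.1 y.2.2) =
        ind (SE S (E 1)) + ind (Pot S z.1 z.2.1 z.2.2) at e
      change _ + (ind (SE S (E 1)) - ind (SE S (E 0))) = _
      linarith
  have z := (key _ c).2
  rw [ind_neg (p := Pot S X B' Γ') (by rintro (⟨u, -⟩ | ⟨u, -⟩) <;> omega),
    ind_neg (p := Pot S Λ B Γ) (by rintro (⟨u, -⟩ | ⟨u, -⟩) <;> omega),
    show o X = o Λ' from congrArg (· ∩ s) (Set.ext hX)] at z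
  have e : ∀ X X' : BD K, cnt S X X' = (o X \ o X').ncard := fun X X' => by
    refine congrArg _ (Set.ext fun P => ?_)
    simp only [o, s, mem_ofPred_eq, mem_sdiff, mem_inter_iff]
    tauto
  rw [e, e]
  simp only [sd] at z
  omega

end Vale.Agent.P287D
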